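import Crest.Agent.Helper82.SD.Exist

/-!
# Integrals split over the Laguerre cells (raw form)
-/

set_option autoImplicit false
set_option linter.unusedSectionVars false
open MeasureTheory Filter Topology
open scoped ENNReal NNReal InnerProductSpace

namespace Crest.Agent.Helper82.SD

variable {E : Type*} [NormedAddCommGroup E] [InnerProductSpace ℝ E] [MeasurableSpace E]
  [BorelSpace E]
variable {ι : Type*} [Fintype ι] [Nonempty ι]

/-- The closed cell equals the strict cell up to a null set. -/
lemma cell_ae_eq_scell (ρ : Measure E)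
    (hties : ∀ (v : E) (c : ℝ), v ≠ 0 → ρ {x | ⟪x, v⟫_ℝ = c} = 0)
    (y : ι → E) (hy : Function.Injective y) (ψ : ι → ℝ) (i : ι) :
    cell y ψ i =ᵐ[ρ] scell y ψ i := by
  rw [ae_eq_set]
  constructor
  · refine measure_mono_null ?_ (measure_ties ρ hties y hy ψ)
    intro x hx
    rcases cell_subset_scell_union_ties y ψ i hx.1 with h | h
    · exact absurd h hx.2
    · exact h
  · have : scell y ψ i \ cell y ψ i = ∅ := by
      ext x
      simp only [Set.mem_sdiff, Set.mem_empty_iff_false, iff_false, not_and, not_not]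
      exact fun h => scell_subset_cell y ψ i h
    rw [this, measure_empty]

/-- The union of the strict cells is conull. -/
lemma iUnion_scell_ae_eq_univ (ρ : Measure E)
    (hties : ∀ (v : E) (c : ℝ), v ≠ 0 → ρ {x | ⟪x, v⟫_ℝ = c} = 0)
    (y : ι → E) (hy : Function.Injective y) (ψ : ι → ℝ) :
    (⋃ i, scell y ψ i) =ᵐ[ρ] (Set.univ : Set E) := by
  rw [ae_eq_univ]
  exact measure_mono_null (compl_iUnion_scell_subset_ties y ψ) (measure_ties ρ hties y hy ψ)

/-- **Integrals split over the cells.** -/
theorem sum_setIntegral_cell (ρ : Measure E)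
    (hties : ∀ (v : E) (c : ℝ), v ≠ 0 → ρ {x | ⟪x, v⟫_ℝ = c} = 0)
    (y : ι → E) (hy : Function.Injective y) (ψ : ι → ℝ)
    {F : Type*} [NormedAddCommGroup F] [NormedSpace ℝ F] (f : E → F) (hf : Integrable f ρ) :
    ∑ i, ∫ x in cell y ψ i, f x ∂ρ = ∫ x, f x ∂ρ := by
  have h1 : ∀ i, ∫ x in cell y ψ i, f x ∂ρ = ∫ x in scell y ψ i, f x ∂ρ := fun i =>
    setIntegral_congr_set (cell_ae_eq_scell ρ hties y hy ψ i)
  simp only [h1]
  rw [← integral_iUnion_fintype (fun i => measurableSet_scell y ψ i)
    (fun i j hij => scell_disjoint y ψ hij) (fun i => hf.integrableOn),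
    setIntegral_congr_set (iUnion_scell_ae_eq_univ ρ hties y hy ψ), setIntegral_univ]

end Crest.Agent.Helper82.SD
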